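import Crest.Agent.X262.Wd54.Defs
import Crest.Agent.X262.Val40.Cfg
import Crest.Agent.X262.Hb.Sat2
import Crest.Agent.X262.Tr89.Fib
import Crest.Agent.X262.Div34.Spec
import Crest.Agent.X262.Tr89.Pb
import Crest.Agent.X262.Sym65.Cal
import Crest.Agent.X262.Wd54.Gx
import Crest.Agent.X262.Val40.Pull
import Crest.Agent.X262.Cnt37.Main
import Crest.Agent.X262.PD.Prd

-- ▼ part X262/Pbd43/Main
section

/-!
# Row 262, road B, WDVV (helper43): pull-back of the weighted virtual number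

* `cp_map`, `cp_gau`, `mcls_map`, `trm_map` : naturality of the integrand;
* `fib_rn`, `itg_poly` : integration along the fibres;
* `pbdStmt : Wd54.PbdStmt`.
-/

set_option autoImplicit false
set_option linter.unusedSectionVars false

noncomputable section

namespace Crest.Agent.X262.Pbd43

open Crest.Agent.X277 Crest.Agent.X277.BD Crest.Agent.X277.Pst Crest.Agent.X277.BD.Cyc Polynomial
open Crest.Agent.X262.Geo (od essFT_Rf od_eq_zero)
open Crest.Agent.X262.Hb Crest.Agent.X262.Vb Crest.Agent.X262.Wd54 Crest.Agent.X262.Val40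
open Crest.Agent.X262.Div (rn cw)
open List (replicate)

variable {J : Type} [Fintype J] [DecidableEq J] {io : J → Type} [∀ j, Fintype (io j)]
  [∀ j, DecidableEq (io j)] {A : Type} [Fintype A] {B : Th} (hB : B.Ax) (T : Tgt io A)
  {I M K E : Type} [Fintype I] [Field K] [Algebra ℂ K] [Algebra.EssFiniteType ℂ K] [Field E]
  [Algebra ℂ E] [Algebra.EssFiniteType ℂ E]

theorem rd_hom {P : Type} [Fintype P] (θ : K →ₐ[ℂ] E) (U : Submodule K (P → K)) :
    rd (LP.hom θ) U = mapS θ U := by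
  simp only [rd, mapS, LP.r_hom, LP.mem_hom_V, implies_true, true_and]

theorem prim_hom (θ : K →ₐ[ℂ] E) {y : Pnt io K} (h : NZ y) : Prim (LP.hom θ).V y := fun j =>
  ⟨fun _ => LP.mem_hom_V θ _, (h j).imp fun i hi => Pl.r_ne_zero_iff.1 (by
    rw [LP.r_hom]
    exact (map_ne_zero θ).2 hi)⟩

theorem on_map (θ : K →ₐ[ℂ] E) (z : Cfg io I K) : (z.map θ).On T ↔ z.On T :=
  forall_congr' fun _ => on_map_iff T θ

variable {T} in
theorem mcls_map {Φ : MFam B io M} (hΦ : MCls B T Φ) (θ : K →ₐ[ℂ] E) {y : M → Pnt io K}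
    (h1 : ∀ q, NZ (y q)) (h2 : ∀ q, T.On (y q)) :
    Φ E (fun q j i => θ (y q j i)) = B.pb (LP.hom θ) (Φ K y) := by
  rw [hΦ.nat K E (LP.hom θ) y (fun q => prim_hom θ (h1 q)) h2]
  congr 1
  funext q j i
  exact (LP.r_hom θ _).symm

include hB

theorem cp_map (θ : K →ₐ[ℂ] E) (z : Cfg io I K) :
    B.cp ((z.map θ).ea T) ((z.map θ).Eb T) =
      (B.cp (z.ea T) (z.Eb T)).map (B.pb (LP.hom θ) : B.H K →+* B.H E) := by
  rw [hB.cp_rd (p := LP.hom θ) fun _ => val_of_top rfl _, rd_hom, ea_map, Eb_map]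
  rfl

theorem cq_map (θ : K →ₐ[ℂ] E) (z : Cfg io I K) :
    B.cq ((z.map θ).ea T) ((z.map θ).Eb T) =
      (B.cq (z.ea T) (z.Eb T)).map (B.pb (LP.hom θ) : B.H K →+* B.H E) := by
  rw [hB.cq_rd (p := LP.hom θ) fun _ => val_of_top rfl _, rd_hom, ea_map, Eb_map]
  rfl

theorem cp_gau {c : I → J → E} (hc : ∀ q j, c q j ≠ 0) {z : Cfg io I E} (hz : z.NZ) :
    B.cp ((z.gau c).ea T) ((z.gau c).Eb T) = B.cp (z.ea T) (z.Eb T) := by
  rw [Eb_gau T hc]
  rw [ea_gau T hc hz]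
  exact hB.cp_dia (a := z.ea T) (c := fun x : A × I => Node22.chr (c x.2) (T.k x.1))
    (fun x => Node22.chr_ne (hc x.2) _) (fun _ => rfl) (z.Eb T)

/-- naturality of the integrand -/
theorem trm_map (θ : K →ₐ[ℂ] E) {z : Cfg io I K} (hz : z.NZ) (m : M → I) {Φ : MFam B io M}
    (hΦ : MCls B T Φ) {W : RZ ℂ E} (hW : Dvs W) (hV : Dvs (dn θ W))
    (h : od (dn θ W) (z.dv T) ≠ 0) :
    trm B T (z.map θ) m Φ W = B.pb (LP.hom (rf θ W)) (trm B T z m Φ (dn θ W)) := by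
  have := essFT_Rf hW
  have := essFT_Rf hV
  obtain ⟨c, hc, h1⟩ := Sq.red (θ := θ) (p := plV (dn θ W)) (q := plV W) (ρ := rf θ W)
    ⟨fun _ => Iff.rfl, fun x => (rf_r θ W x).symm⟩ z
  have h2 : (z.red (plV (dn θ W))).NZ := nz_red _ hz
  have h3 : (z.red (plV (dn θ W))).On T :=
    on_red T (lnr_plV _) z ((od_eq_zero hV).not.1 h)
  have h4 : ((z.red (plV (dn θ W))).map (rf θ W)).NZ := fun q => nz_map _ (h2 q)
  rw [trm, trm, map_mul, h1, exc, exc, Th.cq, cp_gau hB T hc h4, ← Th.cq, cq_map hB, pb_eval,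
    dv_map, ← Tr89.pb_hom_c1 hB, Tr89.pb_at_hom hB,
    ← mcls_map hΦ _ (fun q => h2 (m q)) fun q => h3 (m q)]
  congr 1
  exact hΦ.scl _ _ (fun q => c (m q)) (fun q => hc (m q)) (fun q => h4 (m q))
    fun q => (on_map T _ _).2 h3 (m q)

/-- integration along the fibres -/
theorem fib_rn (α : K →ₐ[ℂ] E) (φ : B.H K) (l : List (BD ℂ E))
    (h : l.length + dim ℂ K ≤ dim ℂ E) :
    B.itg E (Tr89.pc B l * B.pb (LP.hom α) φ) = rn α l * B.itg K φ := by
  induction α using Div.tower_ind with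
  | h => rw [Div.rn_tower, Tr89.fib hB φ l h]

/-- only the top coefficient survives -/
theorem itg_poly (α : K →ₐ[ℂ] E) {Q : (B.H K)[X]} {s : ℕ} {ε : ℂ} (h : BD ℂ E)
    (h1 : Q.natDegree ≤ s) (h2 : Q.coeff s = algebraMap ℂ _ ε) (h3 : s + dim ℂ K ≤ dim ℂ E)
    (φ : B.H K) :
    B.itg E ((Q.map (B.pb (LP.hom α) : B.H K →+* B.H E)).eval (B.c1 h) * B.pb (LP.hom α) φ) =
      rn α (replicate s h) * (ε * B.itg K φ) := by
  rw [eval_eq_sum_range' (n := s + 1) (Nat.lt_succ_of_le (natDegree_map_le.trans h1)),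
    Finset.sum_mul, map_sum]
  have key : ∀ i ≤ s, B.itg E ((Q.map (B.pb (LP.hom α) : B.H K →+* B.H E)).coeff i * B.c1 h ^ i *
      B.pb (LP.hom α) φ) = rn α (replicate i h) * B.itg K (Q.coeff i * φ) := fun i hi => by
    rw [← fib_rn hB α _ _ (by simpa using (Nat.add_le_add_right hi _).trans h3), coeff_map,
      Tr89.pc_replicate, map_mul (B.pb _), RingHom.coe_coe]
    congr 1
    ring
  rw [Finset.sum_range_succ, Finset.sum_eq_zero, zero_add, key s le_rfl, h2, ← Algebra.smul_def,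
    map_smul, smul_eq_mul]
  intro i hi
  have hi' := Finset.mem_range.1 hi
  rw [key i hi'.le, Div.rn_of_ne α (by simp only [List.length_replicate]; omega), Int.cast_zero,
    zero_mul]

theorem ful_map (β : K →ₐ[ℂ] E) {z : Cfg io I K} (hz : z.NZ) (m : M → I) {Φ : MFam B io M}
    (hΦ : MCls B T Φ) (ω : B.H K) :
    ful B T (z.map β) m Φ (B.pb (LP.hom β) ω) = deg β * ful B T z m Φ ω := by
  unfold ful
  by_cases h : z.On T
  · rw [if_pos h, if_pos ((on_map T β z).2 h), ← hB.deg, map_mul (B.pb _), map_mul (B.pb _),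
      pb_eval, map_zero,
      cp_map hB, ← mcls_map hΦ β (fun q => hz (m q)) fun q => h (m q)]
    rfl
  · rw [if_neg h, if_neg ((on_map T β z).not.2 h), dv_map]
    refine finsum_pull β _ _ _ fun W hW hV h0 => ?_
    have := essFT_Rf hW
    have := essFT_Rf hV
    rw [trm_map hB T β hz m hΦ hW hV h0, Tr89.pb_at_hom hB, ← map_mul, hB.deg]

theorem ful_poly (β : K →ₐ[ℂ] E) {Q : (B.H K)[X]} {s : ℕ} {ε : ℂ} (h : BD ℂ E)
    (h1 : Q.natDegree ≤ s) (h2 : Q.coeff s = algebraMap ℂ _ ε) (h3 : s + dim ℂ K ≤ dim ℂ E)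
    {z : Cfg io I K} (hz : z.NZ) (m : M → I) {Φ : MFam B io M} (hΦ : MCls B T Φ) :
    ful B T (z.map β) m Φ ((Q.map (B.pb (LP.hom β) : B.H K →+* B.H E)).eval (B.c1 h)) =
      rn β (replicate s h) * ε * ful B T z m Φ 1 := by
  unfold ful
  by_cases h0 : z.On T
  · rw [if_pos h0, if_pos ((on_map T β z).2 h0), mul_assoc, ← itg_poly hB β h h1 h2 h3, one_mul,
      map_mul (B.pb _), pb_eval, map_zero, cp_map hB,
      ← mcls_map hΦ β (fun q => hz (m q)) fun q => h0 (m q)]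
    rfl
  · rw [if_neg h0, if_neg ((on_map T β z).not.2 h0), dv_map, mul_assoc,
      Div.finsum_rel β (replicate s h) _
        (fun V => ε * B.itg (Rf V) (B.pb (LP.at V) 1 * trm B T z m Φ V)) _ fun W hW hV h4 => ?_]
    · congr 1
      rw [← smul_eq_mul, smul_finsum]
      refine finsum_congr fun V => ?_
      rw [smul_finsum]
      exact finsum_congr fun _ => by rw [smul_eq_mul, mul_left_comm]
    · have := essFT_Rf hW
      have := essFT_Rf hV
      have h5 := dim_rf hW hV.ne_top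
      have h6 : (Q.map (B.pb (LP.hom β) : B.H K →+* B.H E)).map
          (B.pb (LP.at W) : B.H E →+* B.H (Rf W)) =
          (Q.map (B.pb (LP.at (dn β W)) : B.H K →+* B.H (Rf (dn β W)))).map
            (B.pb (LP.hom (rf β W)) : B.H (Rf (dn β W)) →+* B.H (Rf W)) :=
        Polynomial.ext fun i => by
          simp only [coeff_map, RingHom.coe_coe, Tr89.pb_at_hom hB]
      rw [trm_map hB T β hz m hΦ hW hV h4, pb_eval, h6, hB.pb_c1,
        itg_poly hB (rf β W) (s := s) (ε := ε) _ (natDegree_map_le.trans h1)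
          (by rw [coeff_map, h2, RingHom.coe_coe, AlgHom.commutes]) (by omega),
        map_one, one_mul, cw, List.map_replicate]
      rfl

omit hB in
/-- **pull-back of the weighted number** -/
theorem pbdStmt : PbdStmt := fun _ hB _ _ _ _ _ _ _ _ T _ _ _ _ _ _ _ _ β =>
  ⟨fun _ m _ ω hz hΦ => ful_map hB T β hz m hΦ ω, fun _ s ε h h1 h2 h3 =>
    ⟨rn β (replicate s h) * ε, fun h4 => by
      rw [Div.rn_of_ne β (by simp only [List.length_replicate]; omega), Int.cast_zero, zero_mul],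
      fun φ => by rw [itg_poly hB β h h1 h2 h3, mul_assoc],
      fun _ m _ hz hΦ => ful_poly hB T β h h1 h2 h3 hz m hΦ⟩⟩

end Crest.Agent.X262.Pbd43
end
end

-- ▼ part X262/Ord20/Num
section

/-!
# Row 262, road B (helper20): the self-intersection of the exceptional divisor of a point

* `bnum_disj` : divisors which meet trivially;
* `num`       : `E · (-E)^r = 1` for the blow-up of the origin of affine `(r+1)`-space.
-/

set_option autoImplicit false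
set_option linter.unusedSectionVars false

noncomputable section

namespace Crest.Agent.X262.Ord20

open Crest.Agent.X277 Crest.Agent.X277.BD Crest.Agent.X277.Pst Crest.Agent.X277.BD.Cyc
open Crest.Agent.X262.Geo Crest.Agent.X262.Tr89
open Crest.Agent.X262.Lin62 (eft_of_top adjoin_sub dim_le_card)
open List (replicate)
open IntermediateField (adjoin)
open Set (range)

variable {k F : Type} [Field k] [Field F] [Algebra k F] [CharZero k] [Algebra.EssFiniteType k F]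

/-- a class which is trivial near the support of a divisor -/
theorem bnum_disj {a b : BD k F}
    (h : ∀ W : RZ k F, a.val W ≠ 1 → ∀ Z : RZ k F, Z.1 ≤ W.1 → b.val Z = 1)
    (l : List (BD k F)) : bnum (a :: b :: l) = 0 := by
  obtain ⟨T, h1, -, h3⟩ := exists_cyc' a (b :: l)
  rw [h3]
  refine Finset.sum_eq_zero fun W hW => ?_
  by_cases h0 : od W a = 0
  · rw [h0, zero_mul]
  have h4 := h W ((od_eq_zero (h1 W hW)).not.1 h0)
  have := essFT_Rf (h1 W hW)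
  have h5 : (plV W).res b = 0 := ext' fun Z => by
    rw [Pl.val_res (g := 1) (h4 _ le_rfl) (by rw [map_one, h4 _ (Pl.cm_le Z)]), Pl.r_one, map_one,
      val_zero]
  rw [Geo.dg_eq, List.map_cons, (Pl.lin_rs_res (p := plV W) (h4 _ le_rfl)).bnum_eq, h5, bnum_zero,
    mul_zero]

theorem bnum_rep_eq {a b c : BD k F} (h : ∀ l, bnum (a :: b :: l) = bnum (a :: c :: l)) :
    ∀ (m : ℕ) (l : List (BD k F)),
      bnum (a :: (replicate m b ++ l)) = bnum (a :: (replicate m c ++ l))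
  | 0, _ => rfl
  | m + 1, l => by
    have h1 : ∀ x : BD k F, bnum (a :: c :: (replicate m x ++ l)) =
        bnum (a :: (replicate m x ++ c :: l)) := fun x =>
      bnum_perm (List.Perm.cons _ List.perm_middle.symm)
    rw [List.replicate_succ, List.replicate_succ, List.cons_append, List.cons_append, h, h1, h1]
    exact bnum_rep_eq h m _

theorem num' {r : ℕ} {u : Fin (r + 1) → F} (hu : adjoin k (range u) = ⊤) (hd : dim k F = r + 1) :
    bnum (-(mxf k u ⊓ 0) :: replicate r (mxf k u ⊓ 0)) = 1 := by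
  have h0 : u 0 ≠ 0 := (algInd_of_dim hu (by simp [hd])).ne_zero 0
  have hA : bnum (replicate (r + 1) (mxf k u ⊔ 0)) = 1 := by
    rw [show mxf k u ⊔ 0 = mxf k (Fin.cons 1 u : Fin (r + 2) → F) from
      eq_mxf (fun i W => ?_) fun W => ?_]
    · exact bnum_proj (by simp) (by simpa using hu) hd
    · rw [val_sup]
      refine Fin.cases ?_ (fun i => le_max_of_le_left (mem_Sec_mxf u i W)) i
      simp
    · rw [val_sup]
      rcases le_total ((mxf k u).val W) ((0 : BD k F).val W) with h | h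
      · exact ⟨0, by rw [max_eq_right h]; simp⟩
      · obtain ⟨i, hi⟩ := exists_val_mxf (k := k) ⟨0, h0⟩ W
        exact ⟨i.succ, by rw [max_eq_left h]; exact hi⟩
  have hB : bnum (replicate (r + 1) (mxf k u)) = 0 := by
    by_contra hc
    have h1 := le_dim_of_bnum h0 hc
    have h2 : adjoin k (range fun j => u j / u 0) =
        adjoin k (range fun j : Fin r => u j.succ / u 0) := by
      refine le_antisymm (IntermediateField.adjoin_le_iff.2 ?_)
        (IntermediateField.adjoin.mono _ _ _ (by rintro _ ⟨j, rfl⟩; exact ⟨_, rfl⟩))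
      rintro _ ⟨j, rfl⟩
      refine Fin.cases ?_ (fun l => IntermediateField.subset_adjoin _ _ ⟨l, rfl⟩) j
      simp [div_self h0]
    rw [h2] at h1
    have := eft_of_top (adjoin_sub (k := k) fun j : Fin r => u j.succ / u 0)
    have h3 := dim_le_card (adjoin_sub (k := k) fun j : Fin r => u j.succ / u 0)
    rw [Fintype.card_fin] at h3
    omega
  generalize mxf k u = a at hA hB
  have h1 : ∀ l, bnum ((a ⊓ 0) :: (a ⊔ 0) :: l) = 0 := bnum_disj fun W hW Z hZ => by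
    rw [val_sup, val_zero, max_eq_right_iff]
    by_contra hc
    have h2 : Z.v (a.gen Z)⁻¹ ≤ 1 := by
      rw [map_inv₀, v_gen]
      exact inv_le_one_of_one_le₀ (not_le.1 hc).le
    have h3 : W.v (a.gen Z)⁻¹ ≤ 1 := RZ.le_one_iff.2 (hZ (RZ.le_one_iff.1 h2))
    rw [map_inv₀, val_of_le hZ (v_gen a Z), inv_le_one₀ (val_pos _ _)] at h3
    exact hW (by rw [val_inf, val_zero, min_eq_right h3])
  have h2 : a = a ⊔ 0 + a ⊓ 0 := by rw [add_comm, inf_add_sup, add_zero]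
  generalize a ⊔ 0 = A at hA h1 h2
  generalize a ⊓ 0 = N at h1 h2
  subst h2
  have h3 := bnum_rep_eq (a := A) (b := A + N) (c := A)
    (fun l => by rw [bnum_add2, bnum_swap A N, h1, add_zero]) r []
  have h4 := bnum_rep_eq (a := N) (b := A + N) (c := N)
    (fun l => by rw [bnum_add2, h1, zero_add]) r []
  simp only [List.append_nil] at h3 h4
  rw [List.replicate_succ] at hA hB
  rw [bnum_add, h3, h4, hA] at hB
  rw [bnum_neg]
  omega

/-- the exceptional divisor of the blow-up of the origin -/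
theorem num {ι : Type} [Fintype ι] {r : ℕ} {u : ι → F} (hu : adjoin k (range u) = ⊤)
    (hc : Fintype.card ι = r + 1) (hd : dim k F = r + 1) :
    bnum (-(mxf k u ⊓ 0) :: replicate r (mxf k u ⊓ 0)) = 1 := by
  let e := (Fintype.equivFinOfCardEq hc).symm
  have h0 : u (e 0) ≠ 0 := (algInd_of_dim hu (by rw [hd, hc])).ne_zero _
  rw [show mxf k u = mxf k (u ∘ e) from eq_mxf (fun i => mem_Sec_mxf u _) fun W => ?_]
  · exact num' (by rwa [e.surjective.range_comp]) hd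
  · obtain ⟨i, hi⟩ := exists_val_mxf (k := k) ⟨_, h0⟩ W
    exact ⟨e.symm i, by simpa using hi⟩

end Crest.Agent.X262.Ord20
end
end

-- ▼ part X262/Prod33/Ker
section

/-!
# Row 262, road B (helper33), part 1: the excess class on a product field

* `BF B K₁ K₂`, `Nt Θ Z₁ Z₂` : a class for every pair of places, natural for field embeddings;
* `Nt.ind`, `gx_of_ind` : a nonzero integral forces independent residues, hence a Gauss extension;
* `sm_gx`   : sums over the Gauss extensions;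
* `sm_ker`  : the product formula with an arbitrary kernel;
* `isPF_of_prd`, `prd_of_isPF`.
-/

set_option autoImplicit false
set_option linter.unusedSectionVars false
set_option linter.style.haveILetI false

noncomputable section

namespace Crest.Agent.X262.Prod33

open Crest.Agent.X277 Crest.Agent.X277.BD Crest.Agent.X277.Pst Crest.Agent.X277.BD.Cyc Polynomial
open Crest.Agent.X262.Geo (od od_eq_zero essFT_Rf dim_Rf')
open Crest.Agent.X262.Hb Crest.Agent.X262.Sym65 Crest.Agent.X262.Wd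
open Crest.Agent.R274.Prod1_134 (IsPF)
open Crest.Agent.R276.DivVal_858 (ResInd)
open Set

variable {K K₁ K₂ L E : Type} [Field K] [Algebra ℂ K] [Field K₁] [Algebra ℂ K₁] [Field K₂]
  [Algebra ℂ K₂] [Field L] [Algebra ℂ L] [Field E] [Algebra ℂ E] {B : Th}

/-! ### independent families -/

theorem exists_ind [Algebra.EssFiniteType ℂ E] {S : Set E}
    (h : dim ℂ E = dim ℂ (IntermediateField.adjoin ℂ S)) :
    ∃ y : Fin (dim ℂ E) → E, (∀ i, y i ∈ S) ∧ AlgebraicIndependent ℂ y := by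
  haveI := essFT_of_hom (IntermediateField.adjoin ℂ S).val
  have h0 : 0 < deg (IntermediateField.adjoin ℂ S).val := (deg_pos_iff _).2 h
  have h1 : Module.Finite (IntermediateField.adjoin ℂ S) E := Module.finite_of_finrank_pos h0
  have h2 : Algebra.IsAlgebraic (Algebra.adjoin ℂ S) E :=
    IntermediateField.isAlgebraic_adjoin_iff_top.1 inferInstance
  obtain ⟨t, ht, hb⟩ := exists_isTranscendenceBasis_subset (R := ℂ) S
  have h3 := hb.cardinalMk_eq_trdeg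
  rw [trdeg_eq_dim] at h3
  obtain ⟨e⟩ := Cardinal.mk_eq_nat_iff.1 h3
  exact ⟨fun i => e.symm i, fun i => ht (e.symm i).2, hb.1.comp _ e.symm.injective⟩

theorem ind_option {W : RZ ℂ E} {ι : Type} {y : ι → E} (hy : ResInd ℂ W.1 y) {u : E} (h0 : u ≠ 0)
    (hu : W.v u < 1) : AlgebraicIndependent ℂ fun o : Option ι => o.elim u y := by
  rw [hy.algInd.option_iff_transcendental]
  intro h
  obtain ⟨q, hq, hqu⟩ := h.exists_nonzero_coeff_and_aeval_eq_zero (mem_nonZeroDivisors_of_ne_zero h0)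
  have h1 : ∀ a : Algebra.adjoin ℂ (Set.range y), W.v a ≤ 1 ∧ (a ≠ 0 → W.v a = 1) := by
    rintro ⟨a, ha⟩
    rw [Algebra.adjoin_range_eq_range_aeval] at ha
    obtain ⟨p, rfl⟩ := ha
    by_cases hp : p = 0
    · subst hp
      exact ⟨by simp, fun h => (h (Subtype.ext (map_zero _))).elim⟩
    · exact ⟨(hy.2 p hp).le, fun _ => hy.2 p hp⟩
  have h2 : ∀ p : Polynomial (Algebra.adjoin ℂ (Set.range y)), W.v (Polynomial.aeval u p) ≤ 1 := by
    intro p
    rw [Polynomial.aeval_eq_sum_range]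
    refine W.v.map_sum_le fun i _ => ?_
    rw [Algebra.smul_def, map_mul, map_pow]
    exact mul_le_one' (h1 _).1 (pow_le_one' hu.le i)
  rw [← Polynomial.X_mul_divX_add q, map_add, map_mul, Polynomial.aeval_X, Polynomial.aeval_C,
    add_eq_zero_iff_neg_eq] at hqu
  have h3 := (h1 _).2 hq
  change W.v (algebraMap _ E (q.coeff 0)) = 1 at h3
  rw [← hqu, Valuation.map_neg, map_mul] at h3
  exact ((mul_le_of_le_one_right' (h2 _)).trans_lt hu).ne h3

theorem resInd_of_rr {W : RZ ℂ E} {ι : Type} {x : ι → E}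
    (h : AlgebraicIndependent ℂ fun i => rr W (x i)) : ResInd ℂ W.1 x := resInd_iff_res.2 h

/-- a place takes its values in the field generated by them -/
theorem exists_fac (p : LP K E) (E₀ : IntermediateField ℂ E) (h : range p.r ⊆ E₀) :
    ∃ p' : LP K E₀, p'.comp (LP.hom E₀.val) = p := by
  have h1 : ∀ y, p.emb y ∈ E₀.toSubalgebra := fun y => by
    obtain ⟨x, -, rfl⟩ := rr_surj p.V y
    rw [p.emb_r]
    exact h ⟨x, rfl⟩
  refine ⟨(LP.at p.V).comp (LP.hom (p.emb.codRestrict E₀.toSubalgebra h1)), LP.ext fun x => ?_⟩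
  rw [LP.r_comp, LP.r_comp, LP.r_hom, LP.r_hom]
  exact p.emb_r x

theorem fs_true {p : Prop} (h : p) (x : ℂ) : ∑ᶠ _ : p, x = x := by
  classical
  rw [finsum_eq_if, if_pos h]

theorem fs_false {p : Prop} (h : ¬ p) (x : ℂ) : ∑ᶠ _ : p, x = 0 := by
  classical
  rw [finsum_eq_if, if_neg h]

/-! ### product fields -/

section PF

variable [Algebra.EssFiniteType ℂ K₁] [Algebra.EssFiniteType ℂ K₂] {a : K₁ →ₐ[ℂ] L}
  {b : K₂ →ₐ[ℂ] L}

theorem prd_of_isPF (h : IsPF a b) : Prd a b := by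
  refine ⟨dim_pf h, top_unique ?_⟩
  rw [← h.adjoin_eq, IntermediateField.adjoin_le_iff]
  rintro _ (⟨x, rfl⟩ | ⟨x, rfl⟩)
  · exact (le_sup_left : a.fieldRange ≤ _) ⟨x, rfl⟩
  · exact (le_sup_right : b.fieldRange ≤ _) ⟨x, rfl⟩

theorem isPF_of_prd [Algebra.EssFiniteType ℂ L] (h : Prd a b) : IsPF a b := by
  have h1 : IntermediateField.adjoin ℂ (range a ∪ range b) = ⊤ := top_unique <| by
    rw [← h.2]
    exact sup_le (fun _ ⟨x, hx⟩ => IntermediateField.subset_adjoin ℂ _ (Or.inl ⟨x, hx⟩))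
      fun _ ⟨x, hx⟩ => IntermediateField.subset_adjoin ℂ _ (Or.inr ⟨x, hx⟩)
  obtain ⟨s, hs⟩ := exists_tb ℂ K₁
  obtain ⟨t, ht⟩ := exists_tb ℂ K₂
  refine isPF_of_adjoin (inj_of_algInd hs.isAlgebraic ht.isAlgebraic ?_) h1
  let R := Algebra.adjoin ℂ (range (Sum.elim (a ∘ s) (b ∘ t)))
  have h2 : ∀ x ∈ range a ∪ range b, IsAlgebraic R x := by
    rintro _ (⟨x, rfl⟩ | ⟨x, rfl⟩)
    · refine isAlg_map a a.injective ?_ (hs.isAlgebraic.1 x)
      rintro _ ⟨_, ⟨i, rfl⟩, rfl⟩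
      exact Algebra.subset_adjoin ⟨Sum.inl i, rfl⟩
    · refine isAlg_map b b.injective ?_ (ht.isAlgebraic.1 x)
      rintro _ ⟨_, ⟨i, rfl⟩, rfl⟩
      exact Algebra.subset_adjoin ⟨Sum.inr i, rfl⟩
  have h3 : Algebra.IsAlgebraic (Algebra.adjoin ℂ (range a ∪ range b)) L :=
    IntermediateField.isAlgebraic_adjoin_iff_top.1 ⟨fun x => by
      have h4 : x ∈ IntermediateField.adjoin ℂ (range a ∪ range b) := h1 ▸ IntermediateField.mem_top
      exact isAlgebraic_algebraMap (⟨x, h4⟩ : IntermediateField.adjoin ℂ (range a ∪ range b))⟩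
  have h4 : Algebra.IsAlgebraic R L := ⟨fun x => isAlg_trans
    (isAlg_adjoin (fun c => isAlgebraic_algebraMap (algebraMap ℂ R c)) h2) (h3.1 x)⟩
  refine (Algebra.IsAlgebraic.isTranscendenceBasis_of_le_trdeg_of_finite ℂ _ ?_).1
  rw [trdeg_eq_dim, h.1]
  simp

theorem gx_of_ind (h : IsPF a b) {W : RZ ℂ L} (hV : (dn a W).1 ≠ ⊤) {ι : Type} [Fintype ι]
    (hc : dim ℂ L ≤ Fintype.card ι + 1) {y : ι → Rf W}
    (h1 : ∀ i, y i ∈ rr W '' (range a ∪ range b)) (h2 : AlgebraicIndependent ℂ y) : Gx a b W := by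
  choose x hx hy using h1
  obtain rfl : (fun i => rr W (x i)) = y := funext hy
  have h3 : (Fintype.card ι : ℕ∞) ≤ (rm W).eRk (range a ∪ range b) :=
    le_rk_iff.2 ⟨x ∘ (Fintype.equivFin ι).symm, fun i => hx _,
      resInd_of_rr (h2.comp _ (Fintype.equivFin ι).symm.injective)⟩
  exact (gx_of_rk h hV (le_trans (by exact_mod_cast hc) (add_le_add_left h3 1))).1

/-- sums over the Gauss extensions -/
theorem sm_gx (h : IsPF a b) (D : BD ℂ K₁) {f : RZ ℂ L → ℂ} {g : RZ ℂ K₁ → ℂ}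
    (h1 : ∀ W, Dvs W → od W (pb a D) ≠ 0 → f W ≠ 0 → Gx a b W)
    (h2 : ∀ W, Gx a b W → Dvs (dn a W) → od (dn a W) D ≠ 0 → f W = g (dn a W)) :
    sm (pb a D) f = sm D g := by
  haveI := essFT_pf h
  choose gx hx hd using exists_gx h
  have h3 : Function.Injective gx := fun V V' e => by rw [← hd V, e, hd]
  have h4 : Function.support (fun W => ∑ᶠ _ : Dvs W, (od W (pb a D) : ℂ) * f W) ⊆ range gx := by
    intro W hW
    by_cases h5 : Dvs W
    · rw [Function.mem_support, fs_true h5, mul_ne_zero_iff, Int.cast_ne_zero] at hW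
      exact ⟨dn a W, (hx _).unique h (h1 W h5 hW.1 hW.2) (hd _)⟩
    · exact (hW (fs_false h5 _)).elim
  rw [sm, ← finsum_mem_univ, ← finsum_mem_inter_support, univ_inter,
    ← inter_eq_right.2 h4, finsum_mem_inter_support, finsum_mem_range h3]
  refine finsum_congr fun V => ?_
  by_cases h5 : Dvs V
  · have h6 : Dvs (dn a (gx V)) := (hd V).symm ▸ h5
    rw [fs_true h5, fs_true ((hx V).dvs h h6), (hx V).od_pb h h6]
    by_cases h7 : od (dn a (gx V)) D = 0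
    · rw [h7, ← hd V, hd, ← hd V, h7, Int.cast_zero, zero_mul, zero_mul]
    · rw [h2 _ (hx V) h6 h7, hd]
  · rw [fs_false h5]
    by_cases h6 : Dvs (gx V)
    · rw [fs_true h6]
      refine mul_eq_zero_of_left (Int.cast_eq_zero.2 (by_contra fun h7 => h5 ?_)) _
      exact hd V ▸ Val40.dvs_dn h6 (Val40.dn_ne_top_of_od h6 h7)
    · exact fs_false h6 _

end PF

/-! ### classes for pairs of places -/

/-- a class for every pair of places -/
abbrev BF (B : Th) (K₁ K₂ : Type) [Field K₁] [Algebra ℂ K₁] [Field K₂] [Algebra ℂ K₂] : Type 1 :=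
  ∀ (E : Type) [Field E] [Algebra ℂ E], LP K₁ E → LP K₂ E → B.H E

/-- the family on a field which contains both fields -/
def BF.dg (Θ : BF B K₁ K₂) (a : K₁ →ₐ[ℂ] L) (b : K₂ →ₐ[ℂ] L) : PF B L :=
  fun E _ _ p => Θ E ((LP.hom a).comp p) ((LP.hom b).comp p)

/-- natural for field embeddings -/
def Nt (Θ : BF B K₁ K₂) (Z₁ : Set (RZ ℂ K₁)) (Z₂ : Set (RZ ℂ K₂)) : Prop :=
  ∀ (E E' : Type) [Field E] [Algebra ℂ E] [Algebra.EssFiniteType ℂ E] [Field E'] [Algebra ℂ E']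
    [Algebra.EssFiniteType ℂ E'] (ρ : E →ₐ[ℂ] E') (p₁ : LP K₁ E) (p₂ : LP K₂ E), p₁.V ∈ Z₁ →
    p₂.V ∈ Z₂ → Θ E' (p₁.comp (LP.hom ρ)) (p₂.comp (LP.hom ρ)) = B.pb (LP.hom ρ) (Θ E p₁ p₂)

/-- the product with one family for each factor -/
def tw (φ₁ : PF B K₁) (φ₂ : PF B K₂) (Θ : BF B K₁ K₂) : BF B K₁ K₂ :=
  fun E _ _ p₁ p₂ => φ₁ E p₁ * φ₂ E p₂ * Θ E p₁ p₂

variable {Θ : BF B K₁ K₂} {Z₁ : Set (RZ ℂ K₁)} {Z₂ : Set (RZ ℂ K₂)} {φ₁ : PF B K₁} {φ₂ : PF B K₂}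

theorem Nt.tw (h : Nt Θ Z₁ Z₂) (l₁ : Liv B Z₁ φ₁) (l₂ : Liv B Z₂ φ₂) : Nt (tw φ₁ φ₂ Θ) Z₁ Z₂ :=
  fun E E' _ _ _ _ _ _ ρ p₁ p₂ h₁ h₂ => by
    rw [Prod33.tw, Prod33.tw, map_mul, map_mul, l₁.nat E E' p₁ _ h₁, l₂.nat E E' p₂ _ h₂,
      h E E' ρ p₁ p₂ h₁ h₂]

/-- a nonzero integral forces independent values -/
theorem Nt.ind (hB : B.Ax) (h : Nt Θ Z₁ Z₂) [Algebra.EssFiniteType ℂ E] {p₁ : LP K₁ E}
    {p₂ : LP K₂ E} (h₁ : p₁.V ∈ Z₁) (h₂ : p₂.V ∈ Z₂) (h0 : B.itg E (Θ E p₁ p₂) ≠ 0) :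
    ∃ y : Fin (dim ℂ E) → E, (∀ i, y i ∈ range p₁.r ∪ range p₂.r) ∧ AlgebraicIndependent ℂ y := by
  refine exists_ind (by_contra fun hd => h0 ?_)
  set E₀ := IntermediateField.adjoin ℂ (range p₁.r ∪ range p₂.r)
  haveI := essFT_of_hom E₀.val
  obtain ⟨q₁, e₁⟩ := exists_fac p₁ E₀ (subset_union_left.trans (IntermediateField.subset_adjoin ℂ _))
  obtain ⟨q₂, e₂⟩ := exists_fac p₂ E₀ (subset_union_right.trans (IntermediateField.subset_adjoin ℂ _))
  have h3 := h E₀ E E₀.val q₁ q₂ (by rwa [← e₁, LP.comp_hom_V] at h₁)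
    (by rwa [← e₂, LP.comp_hom_V] at h₂)
  rw [e₁, e₂] at h3
  rw [h3]
  exact hB.van _ hd _

theorem mem_sup_pb {a : K →ₐ[ℂ] L} {D : BD ℂ K} {p : LP L E} :
    p.V ∈ Sup (pb a D) ↔ ((LP.hom a).comp p).V ∈ Sup D :=
  (res_one_iff (LP.hom a) (val_top D)).not

theorem cf_pb (hB : B.Ax) (a : K →ₐ[ℂ] L) (D : BD ℂ K) :
    cf B (pb a D) = PF.on (cf B D) (LP.hom a) := by
  funext E _ _ p
  rw [cf, PF.on, cf, hB.pb_comp, hB.pb_c1_hom]

theorem hom_at {b : K →ₐ[ℂ] L} {V : RZ ℂ L} (h : ∀ x, b x ∈ V.1) :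
    (LP.hom b).comp (LP.at V) = LP.hom (rt b V h) := LP.ext fun x => by
  rw [LP.r_comp, LP.r_hom, LP.r_hom]
  rfl

theorem hom_at' (a : K →ₐ[ℂ] L) (V : RZ ℂ L) :
    (LP.hom a).comp (LP.at V) = (LP.at (dn a V)).comp (LP.hom (ri a V)) := LP.ext fun x => by
  rw [LP.r_comp, LP.r_comp, LP.r_hom, LP.r_hom]
  exact (ri_rr a V x).symm

theorem val_pb_of_mem {b : K →ₐ[ℂ] L} {V : RZ ℂ L} (h : ∀ x, b x ∈ V.1) (D : BD ℂ K) :
    (pb b D).val V = 1 := by_contra fun h1 => Val40.dn_ne_top h1 (dn_eq_top.2 h)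

theorem res_pb_of_mem {b : K →ₐ[ℂ] L} {V : RZ ℂ L} (h : ∀ x, b x ∈ V.1) (D : BD ℂ K) :
    (plV V).res (pb b D) = pb (rt b V h) D := by
  have h1 := LP.res_comp (LP.hom b) (LP.at V) (a := D)
    ((res_one_iff (LP.hom b) (val_top D)).1 (val_pb_of_mem h D))
  rw [hom_at h] at h1
  exact h1.symm

section Ker

variable [Algebra.EssFiniteType ℂ K₁] [Algebra.EssFiniteType ℂ K₂] {a : K₁ →ₐ[ℂ] L}
  {b : K₂ →ₐ[ℂ] L} {D₁ : BD ℂ K₁} {D₂ : BD ℂ K₂}

/-- on a component which meets both divisors -/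
theorem gx_one (hB : B.Ax) (h : IsPF a b) (hΘ : Nt Θ (Sup D₁) (Sup D₂)) {V : RZ ℂ L} (hV : Dvs V)
    (h₁ : V ∈ Sup (pb a D₁)) (h₂ : V ∈ Sup (pb b D₂)) (h0 : i1 (Θ.dg a b) V ≠ 0) : Gx a b V := by
  haveI := essFT_pf h
  haveI := essFT_Rf hV
  obtain ⟨y, h3, h4⟩ := hΘ.ind hB (mem_sup_pb.1 (show (LP.at V).V ∈ _ from h₁))
    (mem_sup_pb.1 (show (LP.at V).V ∈ _ from h₂)) h0
  refine gx_of_ind h (Val40.dn_ne_top h₁) (by rw [Fintype.card_fin, dim_Rf' hV]) (fun i => ?_) h4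
  rcases h3 i with ⟨x, hx⟩ | ⟨x, hx⟩
  · exact ⟨a x, Or.inl ⟨x, rfl⟩, by rw [← hx, LP.r_comp, LP.r_hom]; rfl⟩
  · exact ⟨b x, Or.inr ⟨x, rfl⟩, by rw [← hx, LP.r_comp, LP.r_hom]; rfl⟩

theorem flag_mem {V : RZ ℂ L} {W : RZ ℂ (Rf V)} (h₁ : V ∈ Sup (pb a D₁))
    (h₂ : (pb b D₂).val V = 1) (h₃ : W ∈ Sup ((plV V).res (pb b D₂))) :
    ((LP.hom a).comp ((LP.at V).comp (LP.at W))).V ∈ Sup D₁ ∧
      ((LP.hom b).comp ((LP.at V).comp (LP.at W))).V ∈ Sup D₂ :=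
  ⟨mem_sup_pb.1 (cl_sup _ _ V (Pl.cm_le (p := plV V) W) h₁),
    mem_sup_pb.1 ((res_one_iff (LP.at V) h₂).not.1 h₃)⟩

theorem flag_ind (hB : B.Ax) (h : IsPF a b) (hΘ : Nt Θ (Sup D₁) (Sup D₂)) {V : RZ ℂ L}
    (hV : Dvs V) (h₁ : V ∈ Sup (pb a D₁)) (h₂ : (pb b D₂).val V = 1) {W : RZ ℂ (Rf V)}
    (hW : Dvs W) (h₃ : W ∈ Sup ((plV V).res (pb b D₂))) (h0 : i2 (Θ.dg a b) V W ≠ 0) :
    ∃ x : Fin (dim ℂ (Rf W)) → L, (∀ i, x i ∈ range a ∪ range b) ∧
      AlgebraicIndependent ℂ fun i => rr W (rr V (x i)) := by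
  haveI := essFT_pf h
  haveI := essFT_Rf hV
  haveI := essFT_Rf hW
  obtain ⟨y, h3, h4⟩ := hΘ.ind hB (flag_mem h₁ h₂ h₃).1 (flag_mem h₁ h₂ h₃).2 h0
  have h5 : ∀ i, ∃ x ∈ range a ∪ range b, rr W (rr V x) = y i := fun i => by
    rcases h3 i with ⟨x, hx⟩ | ⟨x, hx⟩
    · exact ⟨a x, Or.inl ⟨x, rfl⟩, by rw [← hx, LP.r_comp, LP.r_comp, LP.r_hom]; rfl⟩
    · exact ⟨b x, Or.inr ⟨x, rfl⟩, by rw [← hx, LP.r_comp, LP.r_comp, LP.r_hom]; rfl⟩
  choose x hx hy using h5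
  exact ⟨x, hx, (funext hy : _ = y).symm ▸ h4⟩

/-- on a flag -/
theorem gx_two (hB : B.Ax) (h : IsPF a b) (hΘ : Nt Θ (Sup D₁) (Sup D₂)) {V : RZ ℂ L}
    (hV : Dvs V) (h₁ : V ∈ Sup (pb a D₁)) (h₂ : (pb b D₂).val V = 1) {W : RZ ℂ (Rf V)}
    (hW : Dvs W) (h₃ : W ∈ Sup ((plV V).res (pb b D₂))) (h0 : i2 (Θ.dg a b) V W ≠ 0) :
    Gx a b V := by
  haveI := essFT_pf h
  haveI := essFT_Rf hV
  obtain ⟨x, hx, hi⟩ := flag_ind hB h hΘ hV h₁ h₂ hW h₃ h0
  have h4 : ∃ t, rr V (b t) ∉ W.1 := by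
    by_contra! h5
    refine (flag_mem h₁ h₂ h₃).2 (one_of_le (V := _) (U := ((LP.hom b).comp (LP.at V)).V)
      (fun t ht => ?_) ((res_one_iff (LP.hom b) (val_top D₂)).1 h₂))
    exact ⟨trivial, ht.2, by rw [LP.r_hom]; exact h5 t⟩
  obtain ⟨t, ht⟩ := h4
  have h5 : rr V (b t) ≠ 0 := fun h6 => ht (h6 ▸ zero_mem _)
  have h6 : W.v (rr V (b t))⁻¹ < 1 := by
    rw [map_inv₀]
    exact inv_lt_one_of_one_lt₀ (lt_of_not_ge fun h7 => ht (RZ.le_one_iff.1 h7))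
  refine gx_of_ind h (Val40.dn_ne_top h₁) ?_ (fun o => ?_)
    (ind_option (resInd_of_rr hi) (inv_ne_zero h5) h6)
  · rw [Fintype.card_option, Fintype.card_fin, dim_Rf' hV, dim_Rf' hW]
  · rcases o with _ | i
    · exact ⟨b t⁻¹, Or.inr ⟨_, rfl⟩, by rw [map_inv₀]; exact Pl.r_inv _⟩
    · exact ⟨x i, hx i, rfl⟩

/-- the inner sum on a Gauss extension -/
theorem sm_in (hB : B.Ax) (h : IsPF a b) (hΘ : Nt Θ (Sup D₁) (Sup D₂)) {V : RZ ℂ L}
    (hG : Gx a b V) (hV : Dvs (dn a V)) (h₁ : od (dn a V) D₁ ≠ 0) {g : RZ ℂ K₂ → ℂ}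
    (hg : ∀ V₂, Dvs V₂ → od V₂ D₂ ≠ 0 → ∀ (E : Type) [Field E] [Algebra ℂ E]
      [Algebra.EssFiniteType ℂ E] (c₁ : Rf (dn a V) →ₐ[ℂ] E) (c₂ : Rf V₂ →ₐ[ℂ] E), IsPF c₁ c₂ →
      B.itg E (Θ E ((LP.at _).comp (LP.hom c₁)) ((LP.at V₂).comp (LP.hom c₂))) = g V₂) :
    sm ((plV V).res (pb b D₂)) (i2 (Θ.dg a b) V) = sm D₂ g := by
  haveI := essFT_pf h
  have hD := hG.dvs h hV
  haveI := essFT_Rf hV
  haveI := essFT_Rf hD
  have h2 := (hG.isPF h).symm
  have h3 : V ∈ Sup (pb a D₁) := (mem_sup hD).2 (by rwa [hG.od_pb h hV])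
  rw [res_pb_of_mem hG.mem]
  refine sm_gx h2 D₂ (fun W hW h4 h0 => ?_) fun W hW h4 h5 => ?_
  · have h5 := (mem_sup hW).2 h4
    obtain ⟨x, hx, hi⟩ := flag_ind hB h hΘ hD h3 (val_pb_of_mem hG.mem D₂) hW
      (by rwa [res_pb_of_mem hG.mem]) h0
    refine gx_of_ind h2 (Val40.dn_ne_top h5) (by rw [Fintype.card_fin, dim_Rf' hW]) (fun i => ?_) hi
    refine ⟨_, ?_, rfl⟩
    rcases hx i with ⟨t, ht⟩ | ⟨t, ht⟩
    · exact Or.inr ⟨_, ht ▸ ri_rr a V t⟩
    · exact Or.inl ⟨t, ht ▸ rfl⟩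
  · haveI := essFT_Rf (hW.dvs h2 h4)
    rw [← hg _ h4 h5 (Rf W) _ _ (hW.isPF h2).symm, i2, BF.dg, ← LP.comp_assoc, ← LP.comp_assoc,
      hom_at hG.mem, hom_at' a V, hom_at' _ W, LP.comp_assoc, hom_at hW.mem]

/-- **the product formula with a kernel** -/
theorem sm_ker (h2 : TwoStmt) (hB : B.Ax) (h : IsPF a b) (h₁ : 0 ≤ D₁) (h₂ : 0 ≤ D₂)
    {P₁ : PX B K₁} {P₂ : PX B K₂} (l₁ : LivX B (Sup D₁) P₁) (l₂ : LivX B (Sup D₂) P₂)
    (z₁ : ∀ (E : Type) [Field E] [Algebra ℂ E] [Algebra.EssFiniteType ℂ E] (p : LP K₁ E),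
      p.V ∈ Sup D₁ → pv P₁ (cf B D₁) E p = 0)
    (z₂ : ∀ (E : Type) [Field E] [Algebra ℂ E] [Algebra.EssFiniteType ℂ E] (p : LP K₂ E),
      p.V ∈ Sup D₂ → pv P₂ (cf B D₂) E p = 0)
    (hΘ : Nt Θ (Sup D₁) (Sup D₂)) (hl : Liv B (Sup (pb a D₁ ⊓ pb b D₂)) (Θ.dg a b))
    {f : RZ ℂ K₁ → RZ ℂ K₂ → ℂ}
    (hf : ∀ V₁ V₂, Dvs V₁ → Dvs V₂ → od V₁ D₁ ≠ 0 → od V₂ D₂ ≠ 0 → ∀ (E : Type) [Field E]
      [Algebra ℂ E] [Algebra.EssFiniteType ℂ E] (c₁ : Rf V₁ →ₐ[ℂ] E) (c₂ : Rf V₂ →ₐ[ℂ] E),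
      IsPF c₁ c₂ → B.itg E (B.pb (LP.hom c₁) (qv P₁ (cf B D₁) _ (LP.at V₁)) *
        B.pb (LP.hom c₂) (qv P₂ (cf B D₂) _ (LP.at V₂)) *
        Θ E ((LP.at V₁).comp (LP.hom c₁)) ((LP.at V₂).comp (LP.hom c₂))) = f V₁ V₂) :
    sm (pb a D₁ ⊓ pb b D₂) (i1 (qv (PX.on P₁ (LP.hom a) * PX.on P₂ (LP.hom b))
      (cf B (pb a D₁ ⊓ pb b D₂)) * Θ.dg a b)) = sm D₁ fun V₁ => sm D₂ (f V₁) := by
  classical
  haveI := essFT_pf h
  have p₁ : 0 ≤ pb a D₁ := pb_nonneg_iff.2 h₁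
  have p₂ : 0 ≤ pb b D₂ := pb_nonneg_iff.2 h₂
  have s₁ : Sup (pb a D₁ ⊓ pb b D₂) ⊆ Sup (pb a D₁) := sup_inf p₁ p₂ ▸ inter_subset_left
  have s₂ : Sup (pb a D₁ ⊓ pb b D₂) ⊆ Sup (pb b D₂) := sup_inf p₁ p₂ ▸ inter_subset_right
  have q₁ := l₁.qv (Liv.cf hB D₁)
  have q₂ := l₂.qv (Liv.cf hB D₂)
  have n₁ := hΘ.tw q₁ q₂
  have n₂ := hΘ.tw q₁ (l₂.pv Liv.zero)
  rw [h2 B hB _ _ _ _ _ p₁ p₂
    ((l₁.on (LP.hom a)).mono fun V hV => (res_one_iff (LP.hom a) (val_top D₁)).not.1 (s₁ hV))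
    ((l₂.on (LP.hom b)).mono fun V hV => (res_one_iff (LP.hom b) (val_top D₂)).not.1 (s₂ hV)) hl
    (fun E _ _ _ p hp => by rw [cf_pb hB]; exact z₁ E _ (mem_sup_pb.1 (s₁ hp)))
    (fun E _ _ _ p hp _ => by rw [cf_pb hB]; exact z₂ E _ (mem_sup_pb.1 hp)), cf_pb hB, cf_pb hB]
  refine sm_gx h D₁ (fun V hV h3 h0 => ?_) fun V hG hV h3 => ?_
  · have h4 := (mem_sup hV).2 h3
    split_ifs at h0 with h5
    · haveI := essFT_Rf hV
      by_contra h6
      exact h0 (sm_eq_zero fun W hW h7 => by_contra fun h8 =>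
        h6 (gx_two hB h n₁ hV h4 h5 hW ((mem_sup hW).2 h7) h8))
    · exact gx_one hB h n₂ hV h4 h5 h0
  · rw [if_pos (val_pb_of_mem hG.mem D₂)]
    haveI := essFT_Rf hV
    refine sm_in hB h n₁ hG hV h3 fun V₂ h4 h5 E _ _ _ c₁ c₂ hc => ?_
    haveI := essFT_Rf h4
    rw [← hf _ V₂ hV h4 h3 h5 E c₁ c₂ hc, tw, q₁.nat _ E _ _ ((mem_sup hV).2 h3),
      q₂.nat _ E _ _ ((mem_sup h4).2 h5)]

end Ker

end Crest.Agent.X262.Prod33
end
end

-- ▼ part X262/Cht28/Main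

/-!
# Row 262, road B, WDVV (helper28): the chart around the universal glued datum

* `tvD`       : the transvection of a datum, `crd_of_tv` : its moduli;
* `exists_desc'` : descent of a normalised datum to its field of moduli;
* `exists_free` : a purely transcendental extension;
* `chartStmt : Wd54.ChartStmt`.
-/

set_option autoImplicit false
set_option linter.unusedSectionVars false

noncomputable section

namespace Crest.Agent.X262.Cht28

open Crest.Agent.X277.BD (dim trdeg_eq_dim)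
open Crest.Agent.X262.Bub96 (hv)
open Crest.Agent.X262.Vb Crest.Agent.X262.Vb37 Crest.Agent.X262.Wd54 Crest.Agent.X262.Cnt37
open Crest.Agent.X262.Node22 (scl Par dimP)
open Polynomial (C coeff)

variable {J : Type} {io : J → Type} {d : J → ℕ}
  [Fintype J] [DecidableEq J] [∀ j, Fintype (io j)] [∀ j, DecidableEq (io j)]
variable {M : Type} {K : Type} [Field K] [Algebra ℂ K]

/-- the transvection of a datum -/
def tvD (i₀ : (j : J) → io j) (u : Vr io → K) (hu : ∀ j, u ⟨j, i₀ j⟩ = 0) (ξ : Dat io d M K) :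
    Dat io d M K where
  f j i := ξ.f j i + C (u ⟨j, i⟩) * ξ.f j (i₀ j)
  x := ξ.x
  cp := by
    refine ⟨fun j i => (Polynomial.natDegree_add_le _ _).trans (max_le (ξ.cp.1 j i)
      ((Polynomial.natDegree_C_mul_le _ _).trans (ξ.cp.1 j _))), fun j => ?_, fun j => ?_⟩
    · by_cases h : (ξ.f j (i₀ j)).coeff (d j) = 0
      · obtain ⟨i, hi⟩ := ξ.cp.2.1 j
        exact ⟨i, by simpa [h] using hi⟩
      · exact ⟨i₀ j, by simpa [hu] using h⟩
    · rw [eq_top_iff, ← ξ.cp.2.2 j, Ideal.span_le]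
      rintro _ ⟨i, rfl⟩
      have h1 := Ideal.subset_span (s := Set.range fun i => ξ.f j i + C (u ⟨j, i⟩) * ξ.f j (i₀ j))
        ⟨i, rfl⟩
      have h2 := Ideal.subset_span (s := Set.range fun i => ξ.f j i + C (u ⟨j, i⟩) * ξ.f j (i₀ j))
        ⟨i₀ j, rfl⟩
      simp only [hu, map_zero, zero_mul, add_zero] at h2
      simpa using sub_mem h1 (Ideal.mul_mem_left _ (C (u ⟨j, i⟩)) h2)

theorem tv_tvD (i₀ : (j : J) → io j) (u : Vr io → K) (hu : ∀ j, u ⟨j, i₀ j⟩ = 0)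
    (ξ : Dat io d M K) : Tv i₀ u ξ (tvD i₀ u hu ξ) := ⟨hu, rfl, fun _ _ => rfl⟩

variable {i₀ : (j : J) → io j} {u : Vr io → K} {ξ ξ' : Dat io d M K}

theorem tv_y (h : Tv i₀ u ξ ξ') (q : M) (j : J) (i : io j) :
    ξ'.cfg.y q j i = ξ.cfg.y q j i + u ⟨j, i⟩ * ξ.cfg.y q j (i₀ j) := by
  simp only [Dat.cfg, Dat.pt, h.2.1, h.2.2]
  cases ξ.x q <;> simp [hv]

theorem tv_u (h : Tv i₀ u ξ ξ') {q : M} (h0 : ∀ j, ξ.cfg.y q j (i₀ j) ≠ 0) (j : J) (i : io j) :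
    u ⟨j, i⟩ = ξ'.cfg.y q j i / ξ'.cfg.y q j (i₀ j) - ξ.cfg.y q j i / ξ.cfg.y q j (i₀ j) := by
  have := h0 j
  rw [tv_y h, tv_y h, h.1]
  field_simp
  ring

/-- the moduli before the transvection -/
theorem crd_of_tv (h : Tv i₀ u ξ ξ') {q : M} (h0 : ∀ j, ξ.cfg.y q j (i₀ j) ≠ 0)
    (E : IntermediateField ℂ K) (hu : ∀ v, u v ∈ E) (hE : ξ'.crd ⊆ E) : ξ.crd ⊆ E := by
  rintro t (⟨j, i, i', l, l', rfl⟩ | ⟨q, hq⟩)
  · have h1 : ξ.f j (i₀ j) ≠ 0 := fun h1 => h0 j (by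
      simp only [Dat.cfg, Dat.pt, h1]
      cases ξ.x q <;> simp [hv])
    have h2 : ξ'.f j (i₀ j) = ξ.f j (i₀ j) := by rw [h.2.2, h.1]; simp
    have h3 := Polynomial.leadingCoeff_ne_zero.2 h1
    have key : ∀ i l, (ξ.f j i).coeff l / (ξ.f j (i₀ j)).leadingCoeff ∈ E := fun i l => by
      have h4 := sub_mem (hE (Or.inl ⟨j, i, i₀ j, l, (ξ.f j (i₀ j)).natDegree, rfl⟩))
        (mul_mem (hu ⟨j, i⟩) (hE (Or.inl ⟨j, i₀ j, i₀ j, l, (ξ.f j (i₀ j)).natDegree, rfl⟩)))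
      rw [h2, h.2.2, Polynomial.coeff_add, Polynomial.coeff_C_mul, add_div, mul_div_assoc,
        add_sub_cancel_right] at h4
      exact h4
    rw [← div_div_div_cancel_right₀ h3]
    exact div_mem (key i l) (key i' l')
  · exact hE (Or.inr ⟨q, h.2.1 ▸ hq⟩)

theorem n3_map {L : Type} [Field L] [Algebra ℂ L] (α : K →ₐ[ℂ] L) (ξ : Dat io d M K) :
    N3 (ξ.map α) ↔ N3 ξ := by
  have h1 : ∀ (t : Option K) (s : K), t.map α = some (α s) ↔ t = some s := fun t s => by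
    cases t with
    | none => simp
    | some t => simpa using α.injective.eq_iff
  refine exists_congr fun a => exists_congr fun b => exists_congr fun c => ?_
  rw [← h1 _ 0, ← h1 _ 1, map_zero, map_one]
  exact and_congr_left' Option.map_eq_none_iff

/-- descent of a normalised datum to its field of moduli -/
theorem exists_desc' [Fintype M] (ξ : Dat io d M K) (h : N3 ξ) :
    ∃ ω : Dat io d M (IntermediateField.adjoin ℂ ξ.crd),
      ξ.Eqv (ω.map (IntermediateField.adjoin ℂ ξ.crd).val) ∧ N3 ω ∧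
      IntermediateField.adjoin ℂ ω.crd = ⊤ := by
  obtain ⟨ω, h1, h2, h3⟩ := countStmt.1 ξ _ (IntermediateField.subset_adjoin ℂ ξ.crd)
  refine ⟨ω, eqv_symm h1, (n3_map _ ω).1 (by unfold N3 at h ⊢; rwa [h2]), ?_⟩
  apply IntermediateField.map_injective (IntermediateField.adjoin ℂ ξ.crd).val
  rw [IntermediateField.adjoin_map, ← crd_map, h3, ← AlgHom.fieldRange_eq_map,
    IntermediateField.fieldRange_val]

/-- a purely transcendental extension -/
theorem exists_free (k : Type) [Field k] [Algebra ℂ k] [Algebra.EssFiniteType ℂ k] (σ : Type)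
    [Finite σ] : ∃ (K : Type) (_ : Field K) (_ : Algebra ℂ K) (_ : Algebra.EssFiniteType ℂ K)
      (γ : k →ₐ[ℂ] K) (t : σ → K), dim ℂ K = dim ℂ k + Nat.card σ ∧
      IntermediateField.adjoin ℂ (Set.range γ ∪ Set.range t) = ⊤ := by
  let R := MvPolynomial σ k
  let K := FractionRing R
  have h1 : Algebra.EssFiniteType k K := Algebra.EssFiniteType.comp k R K
  have h2 : Algebra.EssFiniteType ℂ K := Algebra.EssFiniteType.comp ℂ k K
  refine ⟨K, inferInstance, inferInstance, h2, IsScalarTower.toAlgHom ℂ k K,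
    fun s => algebraMap R K (MvPolynomial.X s), ?_, eq_top_iff.2 fun x _ => ?_⟩
  · have h3 := trdeg_add_eq ℂ k (A := K)
    have h4 := trdeg_add_eq k R (A := K)
    have : Algebra.IsAlgebraic R K := IsLocalization.isAlgebraic K (nonZeroDivisors R)
    rw [trdeg_eq_zero (R := R), add_zero, MvPolynomial.trdeg_of_isDomain, Cardinal.lift_id,
      ← Cardinal.cast_toNat_of_lt_aleph0 (Cardinal.lt_aleph0_of_finite σ)] at h4
    rw [← h4, trdeg_eq_dim, trdeg_eq_dim] at h3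
    exact_mod_cast h3.symm
  · have key : ∀ p : R, algebraMap R K p ∈ IntermediateField.adjoin ℂ
        (Set.range (IsScalarTower.toAlgHom ℂ k K) ∪
          Set.range fun s => algebraMap R K (MvPolynomial.X s)) := fun p => by
      induction p using MvPolynomial.induction_on with
      | C a => exact IntermediateField.subset_adjoin _ _ (Or.inl ⟨a, rfl⟩)
      | add p q hp hq => rw [map_add]; exact add_mem hp hq
      | mul_X p s hp =>
        rw [map_mul]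
        exact mul_mem hp (IntermediateField.subset_adjoin _ _ (Or.inr ⟨s, rfl⟩))
    obtain ⟨p, q, -, rfl⟩ := IsFractionRing.div_surjective (A := R) x
    exact div_mem (key p) (key q)

theorem map_y {L : Type} [Field L] [Algebra ℂ L] (α : K →ₐ[ℂ] L) (ξ : Dat io d M K) (q : M)
    (j : J) (i : io j) : (ξ.map α).cfg.y q j i = α (ξ.cfg.y q j i) := dmap_pt α ξ _ j i

/-- CHART -/
theorem chartStmt : ChartStmt := by
  intro J _ _ io _ _ d₁ d₂ M₁ M₂ k _ _ _ _ _ ζ₁ ζ₂ n₁ n₂ h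
  choose i₀ hi₀ using nz_pt ζ₂ (ζ₂.x n₂)
  obtain ⟨K, _, _, _, γ, t, hd, hg⟩ := exists_free k (Af i₀)
  rw [card_Af] at hd
  let u : Vr io → K := fun v => if h : v.2 = i₀ v.1 then 0 else t ⟨v.1, v.2, h⟩
  have hu : ∀ j, u ⟨j, i₀ j⟩ = 0 := fun j => dif_pos rfl
  have hT := tv_tvD i₀ u hu (ζ₂.map γ)
  set ζ := tvD i₀ u hu (ζ₂.map γ)
  have h0 : ∀ j, (ζ₂.map γ).cfg.y n₂ j (i₀ j) ≠ 0 := fun j => by
    rw [map_y]
    exact (map_ne_zero γ).2 (hi₀ j)
  have top : ∀ E : IntermediateField ℂ K, Set.range γ ⊆ E → (∀ v, u v ∈ E) → E = ⊤ :=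
    fun E h1 h2 => top_le_iff.1 (hg ▸ IntermediateField.adjoin_le_iff.2 (Set.union_subset h1 (by
      rintro _ ⟨⟨j, i, hi⟩, rfl⟩
      have h3 := h2 ⟨j, i⟩
      rwa [show u ⟨j, i⟩ = t ⟨j, i, hi⟩ from dif_neg hi] at h3)))
  obtain ⟨ω₁, e₁, m₁, g₁⟩ := exists_desc' (ζ₁.map γ) ((n3_map γ ζ₁).2 h.n1)
  obtain ⟨ω₂, e₂, m₂, g₂⟩ := exists_desc' ζ ((n3_map γ ζ₂).2 h.n2)
  obtain ⟨f₁, b₁⟩ := countStmt.2.1 ω₁ m₁ g₁
  obtain ⟨f₂, b₂⟩ := countStmt.2.1 ω₂ m₂ g₂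
  have hs : (IntermediateField.adjoin ℂ (ζ₁.map γ).crd).val.fieldRange ⊔
      (IntermediateField.adjoin ℂ ζ.crd).val.fieldRange = ⊤ := by
    rw [IntermediateField.fieldRange_val, IntermediateField.fieldRange_val]
    set E := IntermediateField.adjoin ℂ (ζ₁.map γ).crd ⊔ IntermediateField.adjoin ℂ ζ.crd
    have c₁ : (ζ₁.map γ).crd ⊆ E := fun x hx =>
      le_sup_left (a := IntermediateField.adjoin ℂ _) (IntermediateField.subset_adjoin ℂ _ hx)
    have c₂ : ζ.crd ⊆ E := fun x hx =>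
      le_sup_right (b := IntermediateField.adjoin ℂ _) (IntermediateField.subset_adjoin ℂ _ hx)
    have hE : ∀ v, u v ∈ E := by
      rintro ⟨j, i⟩
      rw [tv_u hT h0]
      refine sub_mem (rat_mem E c₂ n₂ j i _) ?_
      obtain ⟨s, hs, hp⟩ := h.par
      have h1 := rat_mem E c₁ n₁ j i (i₀ j)
      rw [map_y, map_y, hp, scl, scl, map_mul, map_mul,
        mul_div_mul_left _ _ ((map_ne_zero γ).2 (hs j))] at h1
      rwa [map_y, map_y]
    have c₃ := crd_of_tv hT h0 E hE c₂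
    refine top E ?_ hE
    rw [← AlgHom.coe_fieldRange, SetLike.coe_subset_coe, AlgHom.fieldRange_eq_map, ← h.gen,
      IntermediateField.adjoin_map, IntermediateField.adjoin_le_iff, Set.image_union, ← crd_map,
      ← crd_map]
    exact Set.union_subset c₁ c₃
  have b := PD.Pr.dim_le hs
  have b' := h.dm
  refine ⟨K, _, _, inferInstance, inferInstance, inferInstance, inferInstance, inferInstance,
    inferInstance, inferInstance, γ, _, _, i₀, u, ζ, ω₁, ω₂, hi₀, hT, ⟨m₁, g₁, ?_⟩, ⟨m₂, g₂, ?_⟩,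
    ⟨by omega, hs⟩, e₁, e₂, hd, top _ (fun x hx => IntermediateField.subset_adjoin ℂ _ (Or.inl hx))
      ?_⟩
  · rw [trdeg_eq_dim, Nat.cast_inj]
    omega
  · rw [trdeg_eq_dim, Nat.cast_inj]
    omega
  · rintro ⟨j, i⟩
    rw [tv_u hT h0, map_y, map_y, ← map_div₀]
    exact sub_mem (IntermediateField.subset_adjoin ℂ _ (Or.inr ⟨j, i, _, rfl⟩))
      (IntermediateField.subset_adjoin ℂ _ (Or.inl ⟨_, rfl⟩))

end Crest.Agent.X262.Cht28
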